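import Vale.Agent.P302.MathlibUsed

namespace Vale.Agent.P302

/-- A bin packing instance: a finite list of rational item sizes in `(0,1]`. -/
def IsInstance (I : List ℚ) : Prop := ∀ a ∈ I, 0 < a ∧ a ≤ 1

/-- The items of `I` can be partitioned into `k` bins, each of total size at most `1`:
`f` assigns to every item (a position of the list `I`) one of `k` bins. -/
def Packable (I : List ℚ) (k : ℕ) : Prop :=
  ∃ f : Fin I.length → Fin k, ∀ b : Fin k,
    ∑ i ∈ Finset.univ.filter (fun i => f i = b), I.get i ≤ 1

/-- `OPT I` is the least number of bins into which the items of `I` can be partitioned. -/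
noncomputable def OPT (I : List ℚ) : ℕ := sInf {k : ℕ | Packable I k}

/-- A configuration: a vector `c` indexed by the distinct sizes of `I` with
`∑ σ * c σ ≤ 1` (a size may be used more often than its multiplicity). -/
def IsConfig (I : List ℚ) (c : {σ : ℚ // σ ∈ I.toFinset} → ℕ) : Prop :=
  ∑ σ : {σ : ℚ // σ ∈ I.toFinset}, (σ : ℚ) * (c σ : ℚ) ≤ 1

/-- A feasible solution of the Gilmore-Gomory configuration LP of `I`: nonnegative weights on
configurations (finitely many of them nonzero), covering each distinct size `σ` at least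
as often as its multiplicity in `I`. -/
def LPFeasible (I : List ℚ) (z : ({σ : ℚ // σ ∈ I.toFinset} → ℕ) →₀ ℝ) : Prop :=
  (∀ c ∈ z.support, IsConfig I c) ∧ (∀ c, 0 ≤ z c) ∧
    ∀ σ : {σ : ℚ // σ ∈ I.toFinset}, (I.count (σ : ℚ) : ℝ) ≤ z.sum (fun c t => (c σ : ℝ) * t)

/-- The value of the Gilmore-Gomory configuration LP. -/
noncomputable def LP (I : List ℚ) : ℝ :=
  sInf {v : ℝ | ∃ z, LPFeasible I z ∧ v = z.sum (fun _ t => t)}

end Vale.Agent.P302
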